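import Mathlib

/-!
# P226: the propeller inequality for fine partitions
Per cell: `|z(A)|^4 ≤ (3/2) γ(A)^3` (test against the unit vector `u = z/|z|`, use the tangent-line
inequality `t ≤ (t^+)^4/(4 s^3) + 3 s/4` with `s = |z|/γ(A)` and `E (g^+)^4 = 3/2`).
-/

open MeasureTheory ProbabilityTheory
open scoped RealInnerProductSpace

namespace Vale.Agent.Results.P226.FineCells

theorem gamma_five_half : Real.Gamma (5 / 2) = 3 / 4 * Real.sqrt Real.pi := by
  have h1 : Real.Gamma (1 / 2 + 1) = 1 / 2 * Real.Gamma (1 / 2) := Real.Gamma_add_one (by norm_num)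
  have h2 : Real.Gamma (3 / 2 + 1) = 3 / 2 * Real.Gamma (3 / 2) := Real.Gamma_add_one (by norm_num)
  rw [show (5 / 2 : ℝ) = 3 / 2 + 1 by norm_num, h2, show (3 / 2 : ℝ) = 1 / 2 + 1 by norm_num, h1,
    Real.Gamma_one_half_eq]
  ring

theorem half_rpow : (1 / 2 : ℝ) ^ (-(4 + 1) / 2 : ℝ) = 4 * Real.sqrt 2 := by
  rw [show (-(4 + 1) / 2 : ℝ) = -(5 / 2) by norm_num, Real.rpow_neg (by norm_num),
    one_div, Real.inv_rpow (by norm_num), inv_inv,
    show (5 / 2 : ℝ) = 2 + 1 / 2 by norm_num, Real.rpow_add (by norm_num), ← Real.sqrt_eq_rpow]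
  norm_num

theorem int_real : ∫ t in Set.Ioi (0 : ℝ), t ^ (4 : ℝ) * Real.exp (-(1 / 2) * t ^ (2 : ℝ))
    = 3 / 2 * Real.sqrt (2 * Real.pi) := by
  rw [integral_rpow_mul_exp_neg_mul_rpow (by norm_num) (by norm_num) (by norm_num), half_rpow,
    show ((4 + 1) / 2 : ℝ) = 5 / 2 by norm_num, gamma_five_half,
    Real.sqrt_mul (by norm_num)]
  ring

theorem gauss4 : ∫ t, (max t 0) ^ 4 ∂(gaussianReal 0 1) = 3 / 2 := by
  rw [integral_gaussianReal_eq_integral_smul (by norm_num)]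
  have h0 : ∀ t : ℝ, t ∉ Set.Ioi (0 : ℝ) → gaussianPDFReal 0 1 t • (max t 0) ^ 4 = 0 := by
    intro t ht
    have : t ≤ 0 := by simpa using ht
    simp [max_eq_right this]
  rw [← setIntegral_eq_integral_of_forall_compl_eq_zero h0]
  have h1 : ∫ t in Set.Ioi (0 : ℝ), gaussianPDFReal 0 1 t • (max t 0) ^ 4
      = ∫ t in Set.Ioi (0 : ℝ), (Real.sqrt (2 * Real.pi))⁻¹ *
          (t ^ (4 : ℝ) * Real.exp (-(1 / 2) * t ^ (2 : ℝ))) := by
    refine setIntegral_congr_fun measurableSet_Ioi fun t ht => ?_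
    have ht0 : (0 : ℝ) < t := ht
    simp only [gaussianPDFReal, smul_eq_mul, max_eq_left ht0.le]
    rw [Real.rpow_ofNat, Real.rpow_ofNat]
    have : (-(t - 0) ^ 2 / (2 * ((1 : NNReal) : ℝ))) = -(1 / 2) * t ^ 2 := by
      simp; ring
    rw [this]
    simp
    ring
  rw [h1, integral_const_mul, int_real]
  have : Real.sqrt (2 * Real.pi) ≠ 0 := by positivity
  field_simp

theorem fourth {d : ℕ} (u : EuclideanSpace ℝ (Fin d)) (hu : ‖u‖ = 1) :
    Integrable (fun x => (max ⟪u, x⟫ 0) ^ 4) (stdGaussian (EuclideanSpace ℝ (Fin d))) ∧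
    ∫ x, (max ⟪u, x⟫ 0) ^ 4 ∂(stdGaussian (EuclideanSpace ℝ (Fin d))) = 3 / 2 := by
  set μ := stdGaussian (EuclideanSpace ℝ (Fin d)) with hμ
  let L : StrongDual ℝ (EuclideanSpace ℝ (Fin d)) := innerSL ℝ u
  have hLx : ∀ x, L x = ⟪u, x⟫ := fun x => rfl
  have hLmem : MemLp L 4 μ := IsGaussian.memLp_dual μ L 4 (by simp)
  have hcont : Continuous (fun x : EuclideanSpace ℝ (Fin d) => (max ⟪u, x⟫ 0) ^ 4) := by
    fun_prop
  constructor
  · have h4 : Integrable (fun x => ‖L x‖ ^ 4) μ := by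
      have := hLmem.integrable_norm_pow (p := 4) (by norm_num)
      simpa using this
    refine h4.mono' hcont.aestronglyMeasurable (Filter.Eventually.of_forall fun x => ?_)
    rw [Real.norm_of_nonneg (by positivity), hLx, Real.norm_eq_abs]
    apply pow_le_pow_left₀ (le_max_right _ _)
    exact max_le (le_abs_self _) (abs_nonneg _)
  · have hmap : μ.map L = gaussianReal 0 1 := by
      rw [IsGaussian.map_eq_gaussianReal L, integral_strongDual_stdGaussian L,
        variance_dual_stdGaussian L, innerSL_apply_norm ℝ u, hu]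
      simp
    rw [← gauss4, ← hmap, integral_map L.continuous.measurable.aemeasurable
      (by fun_prop)]
    rfl

theorem tangent (s t : ℝ) (hs : 0 < s) : t ≤ (max t 0) ^ 4 / (4 * s ^ 3) + 3 * s / 4 := by
  rcases le_total t 0 with h | h
  · rw [max_eq_right h]
    have : 0 ≤ 3 * s / 4 := by positivity
    simp only [ne_eq, OfNat.ofNat_ne_zero, not_false_eq_true, zero_pow, zero_div, zero_add]
    linarith
  · rw [max_eq_left h]
    have h1 : t ^ 4 - 4 * s ^ 3 * t + 3 * s ^ 4 = (t - s) ^ 2 * (t ^ 2 + 2 * t * s + 3 * s ^ 2) := by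
      ring
    have h2 : 0 ≤ (t - s) ^ 2 * (t ^ 2 + 2 * t * s + 3 * s ^ 2) := by positivity
    have h3 : 0 < 4 * s ^ 3 := by positivity
    have h4 : t - 3 * s / 4 ≤ t ^ 4 / (4 * s ^ 3) := by
      rw [le_div_iff₀ h3]
      nlinarith
    linarith

theorem cell_bound4 {d : ℕ} (A : Set (EuclideanSpace ℝ (Fin d))) :
    ‖∫ x in A, x ∂(stdGaussian (EuclideanSpace ℝ (Fin d)))‖ ^ 4
      ≤ 3 / 2 * (stdGaussian (EuclideanSpace ℝ (Fin d))).real A ^ 3 := by
  set μ := stdGaussian (EuclideanSpace ℝ (Fin d)) with hμ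
  set z := ∫ x in A, x ∂μ with hz
  set a := μ.real A with ha
  have ha0 : 0 ≤ a := measureReal_nonneg
  have hint : Integrable (fun x : EuclideanSpace ℝ (Fin d) => x) μ := IsGaussian.integrable_id
  rcases eq_or_ne z 0 with hz0 | hz0
  · rw [hz0]; simp; positivity
  have hr : 0 < ‖z‖ := norm_pos_iff.2 hz0
  have hapos : 0 < a := by
    rcases ha0.lt_or_eq with h | h
    · exact h
    · exfalso
      apply hz0
      have : μ A = 0 := by
        have h' : μ.real A = 0 := h.symm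
        exact (measureReal_eq_zero_iff (measure_ne_top μ A)).1 h'
      rw [hz]
      exact setIntegral_measure_zero _ this
  set r := ‖z‖ with hrdef
  let u : EuclideanSpace ℝ (Fin d) := r⁻¹ • z
  have hu : ‖u‖ = 1 := by
    simp only [u, norm_smul, norm_inv, Real.norm_eq_abs, abs_of_pos hr]
    exact inv_mul_cancel₀ hr.ne'
  obtain ⟨hPint, hP⟩ := fourth u hu
  have h1 : r = ∫ x in A, ⟪u, x⟫ ∂μ := by
    rw [integral_inner hint.integrableOn u, ← hz]
    simp only [u, real_inner_smul_left, real_inner_self_eq_norm_sq]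
    rw [← hrdef]
    field_simp
  have hgint : Integrable (fun x => ⟪u, x⟫) μ := hint.const_inner u
  set s := r / a with hs
  have hspos : 0 < s := div_pos hr hapos
  have hle : ∫ x in A, ⟪u, x⟫ ∂μ ≤ ∫ x in A, ((max ⟪u, x⟫ 0) ^ 4 / (4 * s ^ 3) + 3 * s / 4) ∂μ := by
    refine integral_mono hgint.integrableOn
      ((hPint.integrableOn.div_const _).add (integrable_const _)) fun x => ?_
    exact tangent s _ hspos
  have hsplit : ∫ x in A, ((max ⟪u, x⟫ 0) ^ 4 / (4 * s ^ 3) + 3 * s / 4) ∂μ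
      = (∫ x in A, (max ⟪u, x⟫ 0) ^ 4 ∂μ) / (4 * s ^ 3) + a * (3 * s / 4) := by
    rw [integral_add (hPint.integrableOn.div_const _) (integrable_const _), integral_div]
    simp [Measure.real, ha, hμ]
  have hmono : ∫ x in A, (max ⟪u, x⟫ 0) ^ 4 ∂μ ≤ ∫ x, (max ⟪u, x⟫ 0) ^ 4 ∂μ :=
    setIntegral_le_integral hPint (Filter.Eventually.of_forall fun x => by positivity)
  have h3 : 0 < 4 * s ^ 3 := by positivity
  have hfin : r ≤ 3 / 2 / (4 * s ^ 3) + a * (3 * s / 4) := by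
    have : (∫ x in A, (max ⟪u, x⟫ 0) ^ 4 ∂μ) / (4 * s ^ 3) ≤ 3 / 2 / (4 * s ^ 3) := by
      apply div_le_div_of_nonneg_right _ h3.le
      rw [← hP]; exact hmono
    linarith
  have hsa : a * (3 * s / 4) = 3 * r / 4 := by
    rw [hs]; field_simp
  have hs3 : 3 / 2 / (4 * s ^ 3) = 3 * a ^ 3 / (8 * r ^ 3) := by
    rw [hs]; field_simp; ring
  rw [hsa, hs3] at hfin
  have h8 : 0 < 8 * r ^ 3 := by positivity
  have : r / 4 ≤ 3 * a ^ 3 / (8 * r ^ 3) := by linarith
  rw [le_div_iff₀ h8] at this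
  nlinarith

theorem fine (d k : ℕ) (A : Fin k → Set (EuclideanSpace ℝ (Fin d)))
    (hA : ∀ i, MeasurableSet (A i)) (hdisj : Pairwise (Function.onFun Disjoint A)) (δ : ℝ)
    (hδ : ∀ i, (stdGaussian (EuclideanSpace ℝ (Fin d))).real (A i) ≤ δ) :
    ∑ i, ‖∫ x in A i, x ∂(stdGaussian (EuclideanSpace ℝ (Fin d)))‖ ^ 2 ≤ Real.sqrt (3 * δ / 2) := by
  have hcell : ∀ i, ‖∫ x in A i, x ∂(stdGaussian (EuclideanSpace ℝ (Fin d)))‖ ^ 2
      ≤ (stdGaussian (EuclideanSpace ℝ (Fin d))).real (A i) * Real.sqrt (3 * δ / 2) := by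
    intro i
    have h := cell_bound4 (A i)
    set a := (stdGaussian (EuclideanSpace ℝ (Fin d))).real (A i) with ha
    set r := ‖∫ x in A i, x ∂(stdGaussian (EuclideanSpace ℝ (Fin d)))‖ with hr
    have ha0 : 0 ≤ a := measureReal_nonneg
    have haδ : a ≤ δ := hδ i
    have hδ0 : 0 ≤ 3 * δ / 2 := by linarith
    rw [← pow_le_pow_iff_left₀ (by positivity) (by positivity) (two_ne_zero), mul_pow,
      Real.sq_sqrt hδ0]
    have : a ^ 3 ≤ a ^ 2 * δ := by
      have : a ^ 2 * a ≤ a ^ 2 * δ := mul_le_mul_of_nonneg_left haδ (by positivity)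
      nlinarith
    nlinarith
  calc ∑ i, ‖∫ x in A i, x ∂(stdGaussian (EuclideanSpace ℝ (Fin d)))‖ ^ 2
      ≤ ∑ i, (stdGaussian (EuclideanSpace ℝ (Fin d))).real (A i) * Real.sqrt (3 * δ / 2) :=
        Finset.sum_le_sum fun i _ => hcell i
    _ = (stdGaussian (EuclideanSpace ℝ (Fin d))).real (⋃ i, A i) * Real.sqrt (3 * δ / 2) := by
        rw [measureReal_iUnion_fintype hdisj hA, Finset.sum_mul]
    _ ≤ Real.sqrt (3 * δ / 2) := by
        have h1 : (stdGaussian (EuclideanSpace ℝ (Fin d))).real (⋃ i, A i) ≤ 1 := measureReal_le_one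
        have h2 : 0 ≤ Real.sqrt (3 * δ / 2) := Real.sqrt_nonneg _
        nlinarith

theorem result (d k : ℕ) (A : Fin k → Set (EuclideanSpace ℝ (Fin d)))
    (hA : ∀ i, MeasurableSet (A i)) (hdisj : Pairwise (Function.onFun Disjoint A)) :
    (∀ δ : ℝ, (∀ i, (stdGaussian (EuclideanSpace ℝ (Fin d))).real (A i) ≤ δ) →
      ∑ i, ‖∫ x in A i, x ∂(stdGaussian (EuclideanSpace ℝ (Fin d)))‖ ^ 2
        ≤ Real.sqrt (3 * δ / 2)) ∧
    ((∀ i, (stdGaussian (EuclideanSpace ℝ (Fin d))).real (A i) ≤ 27 / (32 * Real.pi ^ 2)) →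
      ∑ i, ‖∫ x in A i, x ∂(stdGaussian (EuclideanSpace ℝ (Fin d)))‖ ^ 2
        ≤ 9 / (8 * Real.pi)) ∧
    ((∀ i, (stdGaussian (EuclideanSpace ℝ (Fin d))).real (A i) ≤ 1 / 12) →
      ∑ i, ‖∫ x in A i, x ∂(stdGaussian (EuclideanSpace ℝ (Fin d)))‖ ^ 2
        ≤ 9 / (8 * Real.pi)) := by
  have key : (∀ i, (stdGaussian (EuclideanSpace ℝ (Fin d))).real (A i)
        ≤ 27 / (32 * Real.pi ^ 2)) →
      ∑ i, ‖∫ x in A i, x ∂(stdGaussian (EuclideanSpace ℝ (Fin d)))‖ ^ 2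
        ≤ 9 / (8 * Real.pi) := by
    intro h
    have := fine d k A hA hdisj _ h
    have he : 3 * (27 / (32 * Real.pi ^ 2)) / 2 = (9 / (8 * Real.pi)) ^ 2 := by
      have : Real.pi ≠ 0 := Real.pi_ne_zero
      field_simp
      ring
    rwa [he, Real.sqrt_sq (by positivity)] at this
  refine ⟨fun δ hδ => fine d k A hA hdisj δ hδ, key, fun h => key fun i => (h i).trans ?_⟩
  have hpi : Real.pi < 3.15 := Real.pi_lt_d2
  have hpi0 : 0 < Real.pi := Real.pi_pos
  rw [div_le_div_iff₀ (by norm_num) (by positivity)]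
  nlinarith

end Vale.Agent.Results.P226.FineCells
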