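import Vale.Agent.Results.P226.PerCellSharp

/-!
# P226: three regimes in which per-cell bounds settle the propeller inequality
(i) universal bound `0.406`; (ii) all cells of measure `≤ 1/7`; (iii) some cell of measure `≥ 0.51`
(that cell contributes at most `1/(2π)`, the others at most `0.406 * 0.49`).
-/

open MeasureTheory ProbabilityTheory
open scoped RealInnerProductSpace

namespace Vale.Agent.Results.P226.PerCellRegimes

open Vale.Agent.Results.P226.PerCellSharp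

theorem big_cell (d k : ℕ) (A : Fin k → Set (EuclideanSpace ℝ (Fin d)))
    (hA : ∀ i, MeasurableSet (A i)) (hdisj : Pairwise (Function.onFun Disjoint A)) (i0 : Fin k)
    (hbig : 51 / 100 ≤ (stdGaussian (EuclideanSpace ℝ (Fin d))).real (A i0)) :
    ∑ i, ‖∫ x in A i, x ∂(stdGaussian (EuclideanSpace ℝ (Fin d)))‖ ^ 2 ≤ 9 / (8 * Real.pi) := by
  have hU : (stdGaussian (EuclideanSpace ℝ (Fin d))).real (⋃ i, A i) ≤ 1 := measureReal_le_one
  rw [measureReal_iUnion_fintype hdisj hA] at hU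
  rw [← Finset.add_sum_erase Finset.univ _ (Finset.mem_univ i0)] at hU ⊢
  have h1 : ‖∫ x in A i0, x ∂(stdGaussian (EuclideanSpace ℝ (Fin d)))‖ ^ 2
      ≤ (3989424 / 10000000 : ℝ) ^ 2 := by
    apply pow_le_pow_left₀ (norm_nonneg _)
    have h := cell_lin (A i0) 0 le_rfl
    have hp := p0_le
    nlinarith
  have h2 : ∑ i ∈ Finset.univ.erase i0,
        ‖∫ x in A i, x ∂(stdGaussian (EuclideanSpace ℝ (Fin d)))‖ ^ 2
      ≤ ∑ i ∈ Finset.univ.erase i0,
        203 / 500 * (stdGaussian (EuclideanSpace ℝ (Fin d))).real (A i) :=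
    Finset.sum_le_sum fun i _ => cell_univ (A i)
  rw [← Finset.mul_sum] at h2
  have hk := kappa_le
  nlinarith

theorem result (d k : ℕ) (A : Fin k → Set (EuclideanSpace ℝ (Fin d)))
    (hA : ∀ i, MeasurableSet (A i)) (hdisj : Pairwise (Function.onFun Disjoint A)) :
    ∑ i, ‖∫ x in A i, x ∂(stdGaussian (EuclideanSpace ℝ (Fin d)))‖ ^ 2 ≤ 203 / 500 ∧
    ((∀ i, (stdGaussian (EuclideanSpace ℝ (Fin d))).real (A i) ≤ 1 / 7) →
      ∑ i, ‖∫ x in A i, x ∂(stdGaussian (EuclideanSpace ℝ (Fin d)))‖ ^ 2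
        ≤ 9 / (8 * Real.pi)) ∧
    ((∃ i, 51 / 100 ≤ (stdGaussian (EuclideanSpace ℝ (Fin d))).real (A i)) →
      ∑ i, ‖∫ x in A i, x ∂(stdGaussian (EuclideanSpace ℝ (Fin d)))‖ ^ 2
        ≤ 9 / (8 * Real.pi)) :=
  ⟨(PerCellSharp.result d k A hA hdisj).1, (PerCellSharp.result d k A hA hdisj).2,
    fun ⟨i0, h⟩ => big_cell d k A hA hdisj i0 h⟩

end Vale.Agent.Results.P226.PerCellRegimes
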