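import Mathlib

/-!
# P226: per-cell bounds for the Gaussian propeller problem
Per cell, with `a = γ(A)` and `r = |z(A)|`:  `r^4 ≤ (3/2) a^3` (fourth moment of a half Gaussian) and
`r ≤ E (g - c)^+ + c a ≤ φ(0) (1 + c^2/2 - c^4/24 + c^6/240) - c/2 + c a` for every `c ≥ 0`.
Finitely many values of `c` give `r^2 ≤ 0.406 a` always and `r^2 ≤ 9/(8π) a` when `a ≤ 1/7`.
-/

open MeasureTheory ProbabilityTheory
open scoped RealInnerProductSpace

namespace Vale.Agent.Results.P226.PerCellSharp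

theorem gamma_five_half : Real.Gamma (5 / 2) = 3 / 4 * Real.sqrt Real.pi := by
  have h1 : Real.Gamma (1 / 2 + 1) = 1 / 2 * Real.Gamma (1 / 2) := Real.Gamma_add_one (by norm_num)
  have h2 : Real.Gamma (3 / 2 + 1) = 3 / 2 * Real.Gamma (3 / 2) := Real.Gamma_add_one (by norm_num)
  rw [show (5 / 2 : ℝ) = 3 / 2 + 1 by norm_num, h2, show (3 / 2 : ℝ) = 1 / 2 + 1 by norm_num, h1,
    Real.Gamma_one_half_eq]
  ring

theorem half_rpow : (1 / 2 : ℝ) ^ (-(4 + 1) / 2 : ℝ) = 4 * Real.sqrt 2 := by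
  rw [show (-(4 + 1) / 2 : ℝ) = -(5 / 2) by norm_num, Real.rpow_neg (by norm_num),
    one_div, Real.inv_rpow (by norm_num), inv_inv,
    show (5 / 2 : ℝ) = 2 + 1 / 2 by norm_num, Real.rpow_add (by norm_num), ← Real.sqrt_eq_rpow]
  norm_num

theorem int_real : ∫ t in Set.Ioi (0 : ℝ), t ^ (4 : ℝ) * Real.exp (-(1 / 2) * t ^ (2 : ℝ))
    = 3 / 2 * Real.sqrt (2 * Real.pi) := by
  rw [integral_rpow_mul_exp_neg_mul_rpow (by norm_num) (by norm_num) (by norm_num), half_rpow,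
    show ((4 + 1) / 2 : ℝ) = 5 / 2 by norm_num, gamma_five_half,
    Real.sqrt_mul (by norm_num)]
  ring

theorem gauss4 : ∫ t, (max t 0) ^ 4 ∂(gaussianReal 0 1) = 3 / 2 := by
  rw [integral_gaussianReal_eq_integral_smul (by norm_num)]
  have h0 : ∀ t : ℝ, t ∉ Set.Ioi (0 : ℝ) → gaussianPDFReal 0 1 t • (max t 0) ^ 4 = 0 := by
    intro t ht
    have : t ≤ 0 := by simpa using ht
    simp [max_eq_right this]
  rw [← setIntegral_eq_integral_of_forall_compl_eq_zero h0]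
  have h1 : ∫ t in Set.Ioi (0 : ℝ), gaussianPDFReal 0 1 t • (max t 0) ^ 4
      = ∫ t in Set.Ioi (0 : ℝ), (Real.sqrt (2 * Real.pi))⁻¹ *
          (t ^ (4 : ℝ) * Real.exp (-(1 / 2) * t ^ (2 : ℝ))) := by
    refine setIntegral_congr_fun measurableSet_Ioi fun t ht => ?_
    have ht0 : (0 : ℝ) < t := ht
    simp only [gaussianPDFReal, smul_eq_mul, max_eq_left ht0.le]
    rw [Real.rpow_ofNat, Real.rpow_ofNat]
    have : (-(t - 0) ^ 2 / (2 * ((1 : NNReal) : ℝ))) = -(1 / 2) * t ^ 2 := by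
      simp; ring
    rw [this]
    simp
    ring
  rw [h1, integral_const_mul, int_real]
  have : Real.sqrt (2 * Real.pi) ≠ 0 := by positivity
  field_simp

theorem fourth {d : ℕ} (u : EuclideanSpace ℝ (Fin d)) (hu : ‖u‖ = 1) :
    Integrable (fun x => (max ⟪u, x⟫ 0) ^ 4) (stdGaussian (EuclideanSpace ℝ (Fin d))) ∧
    ∫ x, (max ⟪u, x⟫ 0) ^ 4 ∂(stdGaussian (EuclideanSpace ℝ (Fin d))) = 3 / 2 := by
  set μ := stdGaussian (EuclideanSpace ℝ (Fin d)) with hμ
  let L : StrongDual ℝ (EuclideanSpace ℝ (Fin d)) := innerSL ℝ u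
  have hLx : ∀ x, L x = ⟪u, x⟫ := fun x => rfl
  have hLmem : MemLp L 4 μ := IsGaussian.memLp_dual μ L 4 (by simp)
  have hcont : Continuous (fun x : EuclideanSpace ℝ (Fin d) => (max ⟪u, x⟫ 0) ^ 4) := by
    fun_prop
  constructor
  · have h4 : Integrable (fun x => ‖L x‖ ^ 4) μ := by
      have := hLmem.integrable_norm_pow (p := 4) (by norm_num)
      simpa using this
    refine h4.mono' hcont.aestronglyMeasurable (Filter.Eventually.of_forall fun x => ?_)
    rw [Real.norm_of_nonneg (by positivity), hLx, Real.norm_eq_abs]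
    apply pow_le_pow_left₀ (le_max_right _ _)
    exact max_le (le_abs_self _) (abs_nonneg _)
  · have hmap : μ.map L = gaussianReal 0 1 := by
      rw [IsGaussian.map_eq_gaussianReal L, integral_strongDual_stdGaussian L,
        variance_dual_stdGaussian L, innerSL_apply_norm ℝ u, hu]
      simp
    rw [← gauss4, ← hmap, integral_map L.continuous.measurable.aemeasurable
      (by fun_prop)]
    rfl

theorem tangent (s t : ℝ) (hs : 0 < s) : t ≤ (max t 0) ^ 4 / (4 * s ^ 3) + 3 * s / 4 := by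
  rcases le_total t 0 with h | h
  · rw [max_eq_right h]
    have : 0 ≤ 3 * s / 4 := by positivity
    simp only [ne_eq, OfNat.ofNat_ne_zero, not_false_eq_true, zero_pow, zero_div, zero_add]
    linarith
  · rw [max_eq_left h]
    have h1 : t ^ 4 - 4 * s ^ 3 * t + 3 * s ^ 4 = (t - s) ^ 2 * (t ^ 2 + 2 * t * s + 3 * s ^ 2) := by
      ring
    have h2 : 0 ≤ (t - s) ^ 2 * (t ^ 2 + 2 * t * s + 3 * s ^ 2) := by positivity
    have h3 : 0 < 4 * s ^ 3 := by positivity
    have h4 : t - 3 * s / 4 ≤ t ^ 4 / (4 * s ^ 3) := by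
      rw [le_div_iff₀ h3]
      nlinarith
    linarith

theorem cell_bound4 {d : ℕ} (A : Set (EuclideanSpace ℝ (Fin d))) :
    ‖∫ x in A, x ∂(stdGaussian (EuclideanSpace ℝ (Fin d)))‖ ^ 4
      ≤ 3 / 2 * (stdGaussian (EuclideanSpace ℝ (Fin d))).real A ^ 3 := by
  set μ := stdGaussian (EuclideanSpace ℝ (Fin d)) with hμ
  set z := ∫ x in A, x ∂μ with hz
  set a := μ.real A with ha
  have ha0 : 0 ≤ a := measureReal_nonneg
  have hint : Integrable (fun x : EuclideanSpace ℝ (Fin d) => x) μ := IsGaussian.integrable_id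
  rcases eq_or_ne z 0 with hz0 | hz0
  · rw [hz0]; simp; positivity
  have hr : 0 < ‖z‖ := norm_pos_iff.2 hz0
  have hapos : 0 < a := by
    rcases ha0.lt_or_eq with h | h
    · exact h
    · exfalso
      apply hz0
      have : μ A = 0 := by
        have h' : μ.real A = 0 := h.symm
        exact (measureReal_eq_zero_iff (measure_ne_top μ A)).1 h'
      rw [hz]
      exact setIntegral_measure_zero _ this
  set r := ‖z‖ with hrdef
  let u : EuclideanSpace ℝ (Fin d) := r⁻¹ • z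
  have hu : ‖u‖ = 1 := by
    simp only [u, norm_smul, norm_inv, Real.norm_eq_abs, abs_of_pos hr]
    exact inv_mul_cancel₀ hr.ne'
  obtain ⟨hPint, hP⟩ := fourth u hu
  have h1 : r = ∫ x in A, ⟪u, x⟫ ∂μ := by
    rw [integral_inner hint.integrableOn u, ← hz]
    simp only [u, real_inner_smul_left, real_inner_self_eq_norm_sq]
    rw [← hrdef]
    field_simp
  have hgint : Integrable (fun x => ⟪u, x⟫) μ := hint.const_inner u
  set s := r / a with hs
  have hspos : 0 < s := div_pos hr hapos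
  have hle : ∫ x in A, ⟪u, x⟫ ∂μ ≤ ∫ x in A, ((max ⟪u, x⟫ 0) ^ 4 / (4 * s ^ 3) + 3 * s / 4) ∂μ := by
    refine integral_mono hgint.integrableOn
      ((hPint.integrableOn.div_const _).add (integrable_const _)) fun x => ?_
    exact tangent s _ hspos
  have hsplit : ∫ x in A, ((max ⟪u, x⟫ 0) ^ 4 / (4 * s ^ 3) + 3 * s / 4) ∂μ
      = (∫ x in A, (max ⟪u, x⟫ 0) ^ 4 ∂μ) / (4 * s ^ 3) + a * (3 * s / 4) := by
    rw [integral_add (hPint.integrableOn.div_const _) (integrable_const _), integral_div]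
    simp [Measure.real, ha, hμ]
  have hmono : ∫ x in A, (max ⟪u, x⟫ 0) ^ 4 ∂μ ≤ ∫ x, (max ⟪u, x⟫ 0) ^ 4 ∂μ :=
    setIntegral_le_integral hPint (Filter.Eventually.of_forall fun x => by positivity)
  have h3 : 0 < 4 * s ^ 3 := by positivity
  have hfin : r ≤ 3 / 2 / (4 * s ^ 3) + a * (3 * s / 4) := by
    have : (∫ x in A, (max ⟪u, x⟫ 0) ^ 4 ∂μ) / (4 * s ^ 3) ≤ 3 / 2 / (4 * s ^ 3) := by
      apply div_le_div_of_nonneg_right _ h3.le
      rw [← hP]; exact hmono
    linarith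
  have hsa : a * (3 * s / 4) = 3 * r / 4 := by
    rw [hs]; field_simp
  have hs3 : 3 / 2 / (4 * s ^ 3) = 3 * a ^ 3 / (8 * r ^ 3) := by
    rw [hs]; field_simp; ring
  rw [hsa, hs3] at hfin
  have h8 : 0 < 8 * r ^ 3 := by positivity
  have : r / 4 ≤ 3 * a ^ 3 / (8 * r ^ 3) := by linarith
  rw [le_div_iff₀ h8] at this
  nlinarith

theorem exp_neg_le (x : ℝ) (hx : 0 ≤ x) : Real.exp (-x) ≤ 1 - x + x ^ 2 / 2 := by
  have h1 : 1 + x + x ^ 2 / 2 ≤ Real.exp x := Real.quadratic_le_exp_of_nonneg hx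
  have h2 : 0 < 1 + x + x ^ 2 / 2 := by positivity
  rw [Real.exp_neg]
  have h3 : (Real.exp x)⁻¹ ≤ (1 + x + x ^ 2 / 2)⁻¹ := inv_anti₀ h2 h1
  refine h3.trans ?_
  rw [inv_le_iff_one_le_mul₀ h2]
  nlinarith [sq_nonneg (x ^ 2)]

theorem int_tri6 (c : ℝ) (hc : 0 ≤ c) :
    ∫ t in Set.Ioi (0 : ℝ), max (c - t) 0 * (1 - t ^ 2 / 2 + t ^ 4 / 8)
      = c ^ 2 / 2 - c ^ 4 / 24 + c ^ 6 / 240 := by
  have h1 : ∫ t in Set.Ioi (0 : ℝ), max (c - t) 0 * (1 - t ^ 2 / 2 + t ^ 4 / 8)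
      = ∫ t in Set.Ioc (0 : ℝ) c, max (c - t) 0 * (1 - t ^ 2 / 2 + t ^ 4 / 8) := by
    apply setIntegral_eq_of_subset_of_forall_sdiff_eq_zero measurableSet_Ioi
      Set.Ioc_subset_Ioi_self
    intro x hx
    have : c < x := by
      by_contra hcon
      exact hx.2 ⟨hx.1, not_lt.1 hcon⟩
    rw [max_eq_right (by linarith)]; simp
  have h2 : ∫ t in Set.Ioc (0 : ℝ) c, max (c - t) 0 * (1 - t ^ 2 / 2 + t ^ 4 / 8)
      = ∫ t in Set.Ioc (0 : ℝ) c, (c - t) * (1 - t ^ 2 / 2 + t ^ 4 / 8) := by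
    refine setIntegral_congr_fun measurableSet_Ioc fun t ht => ?_
    rw [max_eq_left (by linarith [ht.2])]
  rw [h1, h2, ← intervalIntegral.integral_of_le hc]
  have hd : ∀ t ∈ Set.uIcc 0 c, HasDerivAt
      (fun t : ℝ => c * t - t ^ 2 / 2 - c * t ^ 3 / 6 + t ^ 4 / 8 + c * t ^ 5 / 40 - t ^ 6 / 48)
      ((c - t) * (1 - t ^ 2 / 2 + t ^ 4 / 8)) t := by
    intro t _
    have e1 := (hasDerivAt_id t).const_mul c
    have e2 := ((hasDerivAt_id t).pow 2).div_const 2
    have e3 := (((hasDerivAt_id t).pow 3).const_mul c).div_const 6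
    have e4 := ((hasDerivAt_id t).pow 4).div_const 8
    have e5 := (((hasDerivAt_id t).pow 5).const_mul c).div_const 40
    have e6 := ((hasDerivAt_id t).pow 6).div_const 48
    have := ((((e1.sub e2).sub e3).add e4).add e5).sub e6
    refine HasDerivAt.congr_deriv (f := fun t : ℝ => c * t - t ^ 2 / 2 - c * t ^ 3 / 6 + t ^ 4 / 8 + c * t ^ 5 / 40 - t ^ 6 / 48) this ?_
    simp only [id]
    norm_num
    ring
  rw [intervalIntegral.integral_eq_sub_of_hasDerivAt hd (by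
    apply Continuous.intervalIntegrable
    fun_prop)]
  ring

theorem intble_tri6 (c : ℝ) :
    IntegrableOn (fun t : ℝ => max (c - t) 0 * (1 - t ^ 2 / 2 + t ^ 4 / 8)) (Set.Ioi 0) := by
  have h1 : IntegrableOn (fun t : ℝ => max (c - t) 0 * (1 - t ^ 2 / 2 + t ^ 4 / 8))
      (Set.Ioc 0 c) := by
    apply Continuous.integrableOn_Ioc
    fun_prop
  have h2 : IntegrableOn (fun t : ℝ => max (c - t) 0 * (1 - t ^ 2 / 2 + t ^ 4 / 8))
      (Set.Ioi c) := by
    apply IntegrableOn.congr_fun (f := fun _ => (0 : ℝ)) (by simp) _ measurableSet_Ioi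
    intro t ht
    have : c < t := ht
    simp only
    rw [max_eq_right (by linarith)]; simp
  refine (h1.union h2).mono_set ?_
  intro t ht
  by_cases h : t ≤ c
  · exact Or.inl ⟨ht, h⟩
  · exact Or.inr (not_le.1 h)

theorem int_t : ∫ t in Set.Ioi (0 : ℝ), t * Real.exp (-(1 / 2) * t ^ 2) = 1 := by
  have h := integral_rpow_mul_exp_neg_mul_rpow (p := 2) (q := 1) (b := 1 / 2)
    (by norm_num) (by norm_num) (by norm_num)
  have h2 : (1 / 2 : ℝ) ^ (-(1 + 1) / 2 : ℝ) = 2 := by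
    rw [show (-(1 + 1) / 2 : ℝ) = -1 by norm_num, Real.rpow_neg_one]; norm_num
  rw [h2, show ((1 + 1) / 2 : ℝ) = 1 by norm_num, Real.Gamma_one] at h
  simp only [Real.rpow_one, Real.rpow_ofNat] at h
  rw [h]; norm_num

theorem int_e : ∫ t in Set.Ioi (0 : ℝ), Real.exp (-(1 / 2) * t ^ 2) = Real.sqrt (2 * Real.pi) / 2 := by
  rw [integral_gaussian_Ioi]
  congr 2
  field_simp

theorem hinge (c : ℝ) (hc : 0 ≤ c) :
    ∫ t, max (t - c) 0 ∂(gaussianReal 0 1)
      ≤ (Real.sqrt (2 * Real.pi))⁻¹ * (1 + c ^ 2 / 2 - c ^ 4 / 24 + c ^ 6 / 240) - c / 2 := by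
  rw [integral_gaussianReal_eq_integral_smul (by norm_num)]
  have h0 : ∀ t : ℝ, t ∉ Set.Ioi (0 : ℝ) → gaussianPDFReal 0 1 t • max (t - c) 0 = 0 := by
    intro t ht
    have : t ≤ 0 := by simpa using ht
    simp [max_eq_right (by linarith : t - c ≤ 0)]
  rw [← setIntegral_eq_integral_of_forall_compl_eq_zero h0]
  set p0 := (Real.sqrt (2 * Real.pi))⁻¹ with hp0
  have hp0pos : 0 < p0 := by positivity
  have hpdf : ∀ t : ℝ, gaussianPDFReal 0 1 t = p0 * Real.exp (-(1 / 2) * t ^ 2) := by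
    intro t
    simp only [gaussianPDFReal, hp0]
    have : (-(t - 0) ^ 2 / (2 * ((1 : NNReal) : ℝ))) = -(1 / 2) * t ^ 2 := by
      simp; ring
    rw [this]
    simp
  have i1 : IntegrableOn (fun t : ℝ => t * Real.exp (-(1 / 2) * t ^ 2)) (Set.Ioi 0) :=
    (integrable_mul_exp_neg_mul_sq (by norm_num : (0 : ℝ) < 1 / 2)).integrableOn
  have i2 : IntegrableOn (fun t : ℝ => Real.exp (-(1 / 2) * t ^ 2)) (Set.Ioi 0) :=
    (integrable_exp_neg_mul_sq (by norm_num : (0 : ℝ) < 1 / 2)).integrableOn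
  have i3 := intble_tri6 c
  have hle : ∫ t in Set.Ioi (0 : ℝ), gaussianPDFReal 0 1 t • max (t - c) 0
      ≤ ∫ t in Set.Ioi (0 : ℝ), (p0 * (t * Real.exp (-(1 / 2) * t ^ 2))
          - c * p0 * Real.exp (-(1 / 2) * t ^ 2) + p0 * (max (c - t) 0 * (1 - t ^ 2 / 2 + t ^ 4 / 8))) := by
    apply integral_mono_of_nonneg
    · refine Filter.Eventually.of_forall fun t => ?_
      have : 0 ≤ gaussianPDFReal 0 1 t := gaussianPDFReal_nonneg _ _ _
      simp only [Pi.zero_apply, smul_eq_mul]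
      positivity
    · exact ((i1.const_mul p0).sub (i2.const_mul (c * p0))).add (i3.const_mul p0)
    · refine Filter.Eventually.of_forall fun t => ?_
      simp only [smul_eq_mul, hpdf]
      have he1 : Real.exp (-(1 / 2) * t ^ 2) ≤ 1 - t ^ 2 / 2 + t ^ 4 / 8 := by
        have := exp_neg_le (t ^ 2 / 2) (by positivity)
        rw [show -(1 / 2) * t ^ 2 = -(t ^ 2 / 2) by ring]
        refine this.trans (le_of_eq ?_)
        ring
      have he0 : 0 < Real.exp (-(1 / 2) * t ^ 2) := Real.exp_pos _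
      set e := Real.exp (-(1 / 2) * t ^ 2)
      rcases le_total t c with h | h
      · rw [max_eq_right (by linarith), max_eq_left (by linarith)]
        have : p0 * (c - t) * e ≤ p0 * (c - t) * (1 - t ^ 2 / 2 + t ^ 4 / 8) :=
          mul_le_mul_of_nonneg_left he1 (mul_nonneg hp0pos.le (by linarith))
        nlinarith
      · rw [max_eq_left (by linarith), max_eq_right (by linarith)]
        nlinarith
  refine hle.trans (le_of_eq ?_)
  have e1 : ∫ t in Set.Ioi (0 : ℝ), (p0 * (t * Real.exp (-(1 / 2) * t ^ 2))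
          - c * p0 * Real.exp (-(1 / 2) * t ^ 2) + p0 * (max (c - t) 0 * (1 - t ^ 2 / 2 + t ^ 4 / 8)))
      = (∫ t in Set.Ioi (0 : ℝ), (p0 * (t * Real.exp (-(1 / 2) * t ^ 2))
          - c * p0 * Real.exp (-(1 / 2) * t ^ 2))) + ∫ t in Set.Ioi (0 : ℝ), p0 * (max (c - t) 0 * (1 - t ^ 2 / 2 + t ^ 4 / 8)) :=
    integral_add ((i1.const_mul p0).sub (i2.const_mul (c * p0))) (i3.const_mul p0)
  have e2 : ∫ t in Set.Ioi (0 : ℝ), (p0 * (t * Real.exp (-(1 / 2) * t ^ 2))
          - c * p0 * Real.exp (-(1 / 2) * t ^ 2))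
      = (∫ t in Set.Ioi (0 : ℝ), p0 * (t * Real.exp (-(1 / 2) * t ^ 2)))
        - ∫ t in Set.Ioi (0 : ℝ), c * p0 * Real.exp (-(1 / 2) * t ^ 2) :=
    integral_sub (i1.const_mul p0) (i2.const_mul (c * p0))
  rw [e1, e2, integral_const_mul,
    integral_const_mul, integral_const_mul, int_t, int_e, int_tri6 c hc]
  have : Real.sqrt (2 * Real.pi) ≠ 0 := by positivity
  rw [hp0]
  field_simp
  ring

theorem hingeE {d : ℕ} (u : EuclideanSpace ℝ (Fin d)) (hu : ‖u‖ = 1) (c : ℝ) (hc : 0 ≤ c) :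
    Integrable (fun x => max (⟪u, x⟫ - c) 0) (stdGaussian (EuclideanSpace ℝ (Fin d))) ∧
    ∫ x, max (⟪u, x⟫ - c) 0 ∂(stdGaussian (EuclideanSpace ℝ (Fin d)))
      ≤ (Real.sqrt (2 * Real.pi))⁻¹ * (1 + c ^ 2 / 2 - c ^ 4 / 24 + c ^ 6 / 240) - c / 2 := by
  set μ := stdGaussian (EuclideanSpace ℝ (Fin d)) with hμ
  let L : StrongDual ℝ (EuclideanSpace ℝ (Fin d)) := innerSL ℝ u
  have hLx : ∀ x, L x = ⟪u, x⟫ := fun x => rfl
  have hint : Integrable (fun x : EuclideanSpace ℝ (Fin d) => x) μ := IsGaussian.integrable_id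
  have hgint : Integrable (fun x => ⟪u, x⟫) μ := hint.const_inner u
  have hcont : Continuous (fun x : EuclideanSpace ℝ (Fin d) => max (⟪u, x⟫ - c) 0) := by
    fun_prop
  constructor
  · refine hgint.norm.mono' hcont.aestronglyMeasurable (Filter.Eventually.of_forall fun x => ?_)
    rw [Real.norm_of_nonneg (le_max_right _ _), Real.norm_eq_abs]
    exact max_le (by linarith [le_abs_self ⟪u, x⟫]) (abs_nonneg _)
  · have hmap : μ.map L = gaussianReal 0 1 := by
      rw [IsGaussian.map_eq_gaussianReal L, integral_strongDual_stdGaussian L,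
        variance_dual_stdGaussian L, innerSL_apply_norm ℝ u, hu]
      simp
    refine le_trans (le_of_eq ?_) (hinge c hc)
    rw [← hmap, integral_map L.continuous.measurable.aemeasurable (by fun_prop)]
    rfl

theorem cell_lin {d : ℕ} (A : Set (EuclideanSpace ℝ (Fin d))) (c : ℝ) (hc : 0 ≤ c) :
    ‖∫ x in A, x ∂(stdGaussian (EuclideanSpace ℝ (Fin d)))‖
      ≤ (Real.sqrt (2 * Real.pi))⁻¹ * (1 + c ^ 2 / 2 - c ^ 4 / 24 + c ^ 6 / 240) - c / 2
        + c * (stdGaussian (EuclideanSpace ℝ (Fin d))).real A := by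
  set μ := stdGaussian (EuclideanSpace ℝ (Fin d)) with hμ
  set z := ∫ x in A, x ∂μ with hz
  set a := μ.real A with ha
  have ha0 : 0 ≤ a := measureReal_nonneg
  have hint : Integrable (fun x : EuclideanSpace ℝ (Fin d) => x) μ := IsGaussian.integrable_id
  rcases eq_or_ne z 0 with hz0 | hz0
  · rw [hz0, norm_zero]
    have h0 : 0 ≤ (Real.sqrt (2 * Real.pi))⁻¹ * (1 + c ^ 2 / 2 - c ^ 4 / 24 + c ^ 6 / 240) - c / 2 :=
      le_trans (integral_nonneg fun t => le_max_right _ _) (hinge c hc)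
    have : 0 ≤ c * a := mul_nonneg hc ha0
    linarith
  have hr : 0 < ‖z‖ := norm_pos_iff.2 hz0
  set r := ‖z‖ with hrdef
  let u : EuclideanSpace ℝ (Fin d) := r⁻¹ • z
  have hu : ‖u‖ = 1 := by
    simp only [u, norm_smul, norm_inv, Real.norm_eq_abs, abs_of_pos hr]
    exact inv_mul_cancel₀ hr.ne'
  obtain ⟨hPint, hP⟩ := hingeE u hu c hc
  have h1 : r = ∫ x in A, ⟪u, x⟫ ∂μ := by
    rw [integral_inner hint.integrableOn u, ← hz]
    simp only [u, real_inner_smul_left, real_inner_self_eq_norm_sq]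
    rw [← hrdef]
    field_simp
  have hgint : Integrable (fun x => ⟪u, x⟫) μ := hint.const_inner u
  have hle : ∫ x in A, ⟪u, x⟫ ∂μ ≤ ∫ x in A, (max (⟪u, x⟫ - c) 0 + c) ∂μ := by
    refine integral_mono hgint.integrableOn
      (hPint.integrableOn.add (integrable_const _)) fun x => ?_
    have := le_max_left (⟪u, x⟫ - c) 0
    simp only
    linarith
  have hsplit : ∫ x in A, (max (⟪u, x⟫ - c) 0 + c) ∂μ
      = (∫ x in A, max (⟪u, x⟫ - c) 0 ∂μ) + a * c := by
    rw [integral_add hPint.integrableOn (integrable_const _)]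
    simp [Measure.real, ha, hμ]
  have hmono : ∫ x in A, max (⟪u, x⟫ - c) 0 ∂μ ≤ ∫ x, max (⟪u, x⟫ - c) 0 ∂μ :=
    setIntegral_le_integral hPint (Filter.Eventually.of_forall fun x => le_max_right _ _)
  linarith

theorem p0_le : (Real.sqrt (2 * Real.pi))⁻¹ ≤ 3989424 / 10000000 := by
  have hs : 0 < Real.sqrt (2 * Real.pi) := by positivity
  rw [inv_le_comm₀ hs (by norm_num)]
  apply Real.le_sqrt_of_sq_le
  nlinarith [Real.pi_gt_d6]

theorem cell_univ {d : ℕ} (A : Set (EuclideanSpace ℝ (Fin d))) :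
    ‖∫ x in A, x ∂(stdGaussian (EuclideanSpace ℝ (Fin d)))‖ ^ 2
      ≤ 203 / 500 * (stdGaussian (EuclideanSpace ℝ (Fin d))).real A := by
  have h4 := cell_bound4 A
  have hl := cell_lin A
  set a := (stdGaussian (EuclideanSpace ℝ (Fin d))).real A with ha
  set r := ‖∫ x in A, x ∂(stdGaussian (EuclideanSpace ℝ (Fin d)))‖ with hr
  have ha0 : 0 ≤ a := measureReal_nonneg
  have ha1 : a ≤ 1 := measureReal_le_one
  have hr0 : 0 ≤ r := norm_nonneg _
  have hp := p0_le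
  set p0 := (Real.sqrt (2 * Real.pi))⁻¹ with hp0
  rcases le_total a (1 / 10) with h1 | h1
  · rw [← pow_le_pow_iff_left₀ (by positivity) (by positivity) (two_ne_zero)]
    have : a ^ 3 ≤ a ^ 2 * (1 / 10) := by
      have : a ^ 2 * a ≤ a ^ 2 * (1 / 10) := mul_le_mul_of_nonneg_left h1 (by positivity)
      nlinarith
    nlinarith
  rcases le_total a (24 / 100) with h2 | h2
  · have h := hl (79 / 100) (by norm_num)
    have hb : r ≤ 61181 / 500000 + 79 / 100 * a := by nlinarith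
    have : r ^ 2 ≤ (61181 / 500000 + 79 / 100 * a) ^ 2 := pow_le_pow_left₀ hr0 hb 2
    nlinarith [mul_nonneg (sub_nonneg.2 h1) (sub_nonneg.2 h2)]
  rcases le_total a (29 / 100) with h3 | h3
  · have h := hl (62 / 100) (by norm_num)
    have hb : r ≤ 816287 / 5000000 + 62 / 100 * a := by nlinarith
    have : r ^ 2 ≤ (816287 / 5000000 + 62 / 100 * a) ^ 2 := pow_le_pow_left₀ hr0 hb 2
    nlinarith [mul_nonneg (sub_nonneg.2 h2) (sub_nonneg.2 h3)]
  rcases le_total a (58 / 100) with h5 | h5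
  · have h := hl (49 / 100) (by norm_num)
    have hb : r ≤ 1004501 / 5000000 + 49 / 100 * a := by nlinarith
    have : r ^ 2 ≤ (1004501 / 5000000 + 49 / 100 * a) ^ 2 := pow_le_pow_left₀ hr0 hb 2
    nlinarith [mul_nonneg (sub_nonneg.2 h3) (sub_nonneg.2 h5)]
  · have h := hl 0 le_rfl
    have hb : r ≤ 249339 / 625000 := by nlinarith
    have : r ^ 2 ≤ (249339 / 625000 : ℝ) ^ 2 := pow_le_pow_left₀ hr0 hb 2
    nlinarith

theorem kappa_le : (358098 / 1000000 : ℝ) ≤ 9 / (8 * Real.pi) := by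
  rw [le_div_iff₀ (by positivity)]
  nlinarith [Real.pi_lt_d6]

theorem cell_fine {d : ℕ} (A : Set (EuclideanSpace ℝ (Fin d)))
    (hA : (stdGaussian (EuclideanSpace ℝ (Fin d))).real A ≤ 1 / 7) :
    ‖∫ x in A, x ∂(stdGaussian (EuclideanSpace ℝ (Fin d)))‖ ^ 2
      ≤ 9 / (8 * Real.pi) * (stdGaussian (EuclideanSpace ℝ (Fin d))).real A := by
  have h4 := cell_bound4 A
  have hl := cell_lin A
  set a := (stdGaussian (EuclideanSpace ℝ (Fin d))).real A with ha
  set r := ‖∫ x in A, x ∂(stdGaussian (EuclideanSpace ℝ (Fin d)))‖ with hr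
  have ha0 : 0 ≤ a := measureReal_nonneg
  have hr0 : 0 ≤ r := norm_nonneg _
  have hp := p0_le
  set p0 := (Real.sqrt (2 * Real.pi))⁻¹ with hp0
  have hk : r ^ 2 ≤ 358098 / 1000000 * a := by
    rcases le_total a (8 / 100) with h1 | h1
    · rw [← pow_le_pow_iff_left₀ (by positivity) (by positivity) (two_ne_zero)]
      have : a ^ 3 ≤ a ^ 2 * (8 / 100) := by
        have : a ^ 2 * a ≤ a ^ 2 * (8 / 100) := mul_le_mul_of_nonneg_left h1 (by positivity)
        nlinarith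
      nlinarith
    · have h := hl (53 / 50) (by norm_num)
      have hb : r ≤ 372203 / 5000000 + 53 / 50 * a := by nlinarith
      have : r ^ 2 ≤ (372203 / 5000000 + 53 / 50 * a) ^ 2 := pow_le_pow_left₀ hr0 hb 2
      nlinarith [mul_nonneg (sub_nonneg.2 h1) (sub_nonneg.2 hA)]
  exact hk.trans (mul_le_mul_of_nonneg_right kappa_le ha0)

theorem result (d k : ℕ) (A : Fin k → Set (EuclideanSpace ℝ (Fin d)))
    (hA : ∀ i, MeasurableSet (A i)) (hdisj : Pairwise (Function.onFun Disjoint A)) :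
    ∑ i, ‖∫ x in A i, x ∂(stdGaussian (EuclideanSpace ℝ (Fin d)))‖ ^ 2 ≤ 203 / 500 ∧
    ((∀ i, (stdGaussian (EuclideanSpace ℝ (Fin d))).real (A i) ≤ 1 / 7) →
      ∑ i, ‖∫ x in A i, x ∂(stdGaussian (EuclideanSpace ℝ (Fin d)))‖ ^ 2
        ≤ 9 / (8 * Real.pi)) := by
  have hU : (stdGaussian (EuclideanSpace ℝ (Fin d))).real (⋃ i, A i) ≤ 1 := measureReal_le_one
  constructor
  · calc ∑ i, ‖∫ x in A i, x ∂(stdGaussian (EuclideanSpace ℝ (Fin d)))‖ ^ 2
        ≤ ∑ i, 203 / 500 * (stdGaussian (EuclideanSpace ℝ (Fin d))).real (A i) :=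
          Finset.sum_le_sum fun i _ => cell_univ (A i)
      _ = 203 / 500 * (stdGaussian (EuclideanSpace ℝ (Fin d))).real (⋃ i, A i) := by
          rw [measureReal_iUnion_fintype hdisj hA, Finset.mul_sum]
      _ ≤ 203 / 500 := by linarith
  · intro hfine
    calc ∑ i, ‖∫ x in A i, x ∂(stdGaussian (EuclideanSpace ℝ (Fin d)))‖ ^ 2
        ≤ ∑ i, 9 / (8 * Real.pi) * (stdGaussian (EuclideanSpace ℝ (Fin d))).real (A i) :=
          Finset.sum_le_sum fun i _ => cell_fine (A i) (hfine i)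
      _ = 9 / (8 * Real.pi) * (stdGaussian (EuclideanSpace ℝ (Fin d))).real (⋃ i, A i) := by
          rw [measureReal_iUnion_fintype hdisj hA, Finset.mul_sum]
      _ ≤ 9 / (8 * Real.pi) := by
          have : 0 ≤ 9 / (8 * Real.pi) := by positivity
          nlinarith

end Vale.Agent.Results.P226.PerCellSharp
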