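import Mathlib

open MeasureTheory ProbabilityTheory
open scoped RealInnerProductSpace

namespace Vale.Agent.Results.P226.UniversalHalf

theorem cell_bound {d : ℕ} (A : Set (EuclideanSpace ℝ (Fin d))) :
    ‖∫ x in A, x ∂(stdGaussian (EuclideanSpace ℝ (Fin d)))‖ ^ 2
      ≤ (stdGaussian (EuclideanSpace ℝ (Fin d))).real A / 2 := by
  set μ := stdGaussian (EuclideanSpace ℝ (Fin d)) with hμ
  set z := ∫ x in A, x ∂μ with hz
  have hint : Integrable (fun x : EuclideanSpace ℝ (Fin d) => x) μ := IsGaussian.integrable_id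
  have h1 : ‖z‖ ^ 2 = ∫ x in A, ⟪z, x⟫ ∂μ := by
    rw [integral_inner hint.integrableOn z]
    exact (real_inner_self_eq_norm_sq z).symm
  let L : StrongDual ℝ (EuclideanSpace ℝ (Fin d)) := innerSL ℝ z
  have hLx : ∀ x, L x = ⟪z, x⟫ := fun x => rfl
  have hLmem : MemLp L 2 μ := IsGaussian.memLp_dual μ L 2 (by simp)
  have hL2 : ∫ x, (⟪z, x⟫) ^ 2 ∂μ = ‖z‖ ^ 2 := by
    have h := variance_dual_stdGaussian L
    rw [variance_eq_sub hLmem] at h
    have h0 : ∫ x, L x ∂μ = 0 := integral_strongDual_stdGaussian L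
    have hn : ‖L‖ = ‖z‖ := innerSL_apply_norm ℝ z
    rw [h0, hn] at h
    simpa [hLx] using h
  have hsqint : Integrable (fun x => (⟪z, x⟫) ^ 2) μ := by
    have := hLmem.integrable_sq
    simpa [hLx] using this
  have hgint : Integrable (fun x => ⟪z, x⟫) μ := hint.const_inner z
  -- positive and negative parts
  have hPcont : Continuous (fun x : EuclideanSpace ℝ (Fin d) => (max ⟪z, x⟫ 0) ^ 2) := by
    fun_prop
  have hPint : Integrable (fun x => (max ⟪z, x⟫ 0) ^ 2) μ := by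
    refine hsqint.mono' hPcont.aestronglyMeasurable (Filter.Eventually.of_forall fun x => ?_)
    rw [Real.norm_of_nonneg (by positivity)]
    rcases le_total ⟪z, x⟫ 0 with h | h
    · rw [max_eq_right h]; simpa using sq_nonneg ⟪z, x⟫
    · rw [max_eq_left h]
  have hmap : μ.map (fun x => -x) = μ :=
    stdGaussian_map (LinearIsometryEquiv.neg ℝ (E := EuclideanSpace ℝ (Fin d)))
  have hsym : ∫ x, (max ⟪z, -x⟫ 0) ^ 2 ∂μ = ∫ x, (max ⟪z, x⟫ 0) ^ 2 ∂μ := by
    conv_rhs => rw [← hmap]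
    rw [integral_map (by fun_prop) hPcont.aestronglyMeasurable]
  have hNint : Integrable (fun x => (max ⟪z, -x⟫ 0) ^ 2) μ := by
    have hc : Continuous (fun x : EuclideanSpace ℝ (Fin d) => (max ⟪z, -x⟫ 0) ^ 2) := by
      fun_prop
    refine hsqint.mono' hc.aestronglyMeasurable (Filter.Eventually.of_forall fun x => ?_)
    rw [Real.norm_of_nonneg (by positivity), inner_neg_right]
    rcases le_total (-⟪z, x⟫) 0 with h | h
    · rw [max_eq_right h]; simpa using sq_nonneg ⟪z, x⟫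
    · rw [max_eq_left h]; simp
  have hsum : ∫ x, (max ⟪z, x⟫ 0) ^ 2 ∂μ + ∫ x, (max ⟪z, -x⟫ 0) ^ 2 ∂μ = ‖z‖ ^ 2 := by
    rw [← integral_add hPint hNint, ← hL2]
    refine integral_congr_ae (Filter.Eventually.of_forall fun x => ?_)
    simp only [inner_neg_right]
    rcases le_total ⟪z, x⟫ 0 with h | h
    · rw [max_eq_right h, max_eq_left (by linarith)]; ring
    · rw [max_eq_left h, max_eq_right (by linarith)]; ring
  have hP : ∫ x, (max ⟪z, x⟫ 0) ^ 2 ∂μ = ‖z‖ ^ 2 / 2 := by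
    rw [hsym] at hsum; linarith
  have hle : ∫ x in A, ⟪z, x⟫ ∂μ ≤ ∫ x in A, ((max ⟪z, x⟫ 0) ^ 2 + 1 / 4) ∂μ := by
    refine integral_mono hgint.integrableOn
      (hPint.integrableOn.add (integrable_const _)) fun x => ?_
    rcases le_total ⟪z, x⟫ 0 with h | h
    · simp only [max_eq_right h]; linarith
    · simp only [max_eq_left h]; nlinarith [sq_nonneg (⟪z, x⟫ - 1 / 2)]
  have hsplit : ∫ x in A, ((max ⟪z, x⟫ 0) ^ 2 + 1 / 4) ∂μ
      = ∫ x in A, (max ⟪z, x⟫ 0) ^ 2 ∂μ + μ.real A / 4 := by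
    rw [integral_add hPint.integrableOn (integrable_const _)]
    simp [Measure.real]
    ring
  have hmono : ∫ x in A, (max ⟪z, x⟫ 0) ^ 2 ∂μ ≤ ∫ x, (max ⟪z, x⟫ 0) ^ 2 ∂μ :=
    setIntegral_le_integral hPint (Filter.Eventually.of_forall fun x => by positivity)
  linarith

theorem result (d k : ℕ) (A : Fin k → Set (EuclideanSpace ℝ (Fin d)))
    (hA : ∀ i, MeasurableSet (A i)) (hdisj : Pairwise (Function.onFun Disjoint A)) :
    ∑ i, ‖∫ x in A i, x ∂(stdGaussian (EuclideanSpace ℝ (Fin d)))‖ ^ 2 ≤ 1 / 2 := by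
  calc ∑ i, ‖∫ x in A i, x ∂(stdGaussian (EuclideanSpace ℝ (Fin d)))‖ ^ 2
      ≤ ∑ i, (stdGaussian (EuclideanSpace ℝ (Fin d))).real (A i) / 2 :=
        Finset.sum_le_sum fun i _ => cell_bound (A i)
    _ = (stdGaussian (EuclideanSpace ℝ (Fin d))).real (⋃ i, A i) / 2 := by
        rw [measureReal_iUnion_fintype hdisj hA, Finset.sum_div]
    _ ≤ 1 / 2 := by
        have : (stdGaussian (EuclideanSpace ℝ (Fin d))).real (⋃ i, A i) ≤ 1 := measureReal_le_one
        linarith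

end Vale.Agent.Results.P226.UniversalHalf
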